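import Vale.Agent.P225.Assembly.Main
import Vale.Agent.P225.Assembly.FirstParts
import Vale.Agent.P225.Loop.IdealLoop
import Vale.Agent.P225.Loop.CorrParts
import Vale.Agent.P225.Loop.CorrResponse

/-!
P225: a complete manifold with nonnegative Ricci curvature in dimension seven with more harmonic
functions of growth at most fourteen than the Euclidean space.
-/

namespace Vale.Agent.Results.P225.Disproof

open Vale.Agent.P225

/-- Yau's comparison fails in dimension `7` for the degree `14`. -/
theorem result : YauFailsAt 7 14 :=
  yauFailsAt_of_parts one_pos (le_refl 21)
    (fun Mb h => Loop.corrParts_of_response zero_le_one (show 1 ≤ Mb by omega)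
      (Loop.responseData zero_le_one 21 Mb))
    (fun Mb h => idealParts 1 zero_le_one 21 Mb h)
    (fun _ h => firstParts zero_le_one 21 (by omega))

end Vale.Agent.Results.P225.Disproof
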